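import Vale.Agent.P182G84.Der
import Mathlib.LinearAlgebra.Dual.Lemmas
import Mathlib.LinearAlgebra.TensorProduct.Basis

/-!
# P182G: brackets and tensor products
-/

namespace Vale.Agent.P182G

open CliffordAlgebra QuadraticMap
open scoped TensorProduct

universe u v

variable {n : ℕ}

theorem dual_ext {V : Type*} [AddCommGroup V] [Module ℂ V] {x y : V}
    (h : ∀ φ : V →ₗ[ℂ] ℂ, φ x = φ y) : x = y := by
  rw [← sub_eq_zero, ← Module.forall_dual_apply_eq_zero_iff ℂ]
  intro φ
  rw [map_sub, sub_eq_zero]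
  exact h φ

section
variable {V : Type*} [AddCommGroup V] [Module ℂ V] {ρ : Representation ℂ (Spin n) V}
  {D : Cl n →ₗ[ℂ] Module.End ℂ V}

theorem conj_id (hD : IsD ρ D) {X Y : Cl n} (hX : X ∈ Null n) (hY : Y ∈ Null n) (φ : V →ₗ[ℂ] ℂ)
    (v : V) (t : ℂ) :
    φ (D X (ρ (cur hY t) v)) + t * φ (D (Y * X - X * Y) (ρ (cur hY t) v)) -
      t * t * φ (D (Y * X * Y) (ρ (cur hY t) v)) = φ (ρ (cur hY t) (D X v)) := by
  have hi : cur hY (-t) * cur hY t = 1 := by rw [← cur_add, neg_add_cancel, cur_zero]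
  have hc : Tan (fun s => cur hY t * cur hX s * cur hY (-t))
      (X + t • (Y * X - X * Y) - (t * t) • (Y * X * Y)) := by
    refine tan_lin fun s => ?_
    show (1 + t • Y) * (1 + s • X) * (1 + (-t) • Y) = _
    simp only [add_mul, mul_add, one_mul, mul_one, smul_mul_assoc, mul_smul_comm, null_sq hY,
      smul_zero, add_zero]
    module
  have h1 := hD _ _ hc φ (ρ (cur hY t) v)
  have h2 := hD _ _ (tan_cur hX) (φ ∘ₗ ρ (cur hY t)) v
  have e : (fun s => φ (ρ (cur hY t * cur hX s * cur hY (-t)) (ρ (cur hY t) v))) =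
      fun s => (φ ∘ₗ ρ (cur hY t)) (ρ (cur hX s) v) := by
    funext s
    rw [← Module.End.mul_apply, ← map_mul, mul_assoc, hi, mul_one, map_mul]
    rfl
  rw [e] at h1
  simpa using h1.unique h2

theorem br_null (hD : IsD ρ D) {X Y : Cl n} (hX : X ∈ Null n) (hY : Y ∈ Null n) :
    D (Y * X - X * Y) = D Y * D X - D X * D Y := by
  refine LinearMap.ext fun v => dual_ext fun φ => ?_
  have h := fun (ψ : V →ₗ[ℂ] ℂ) w => hD _ _ (tan_cur hY) ψ w
  have i := hasDerivAt_id' (0 : ℂ)
  have h1 := ((h (φ ∘ₗ D X) v).fun_add (i.fun_mul (h (φ ∘ₗ D (Y * X - X * Y)) v))).fun_sub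
    ((i.fun_mul i).fun_mul (h (φ ∘ₗ D (Y * X * Y)) v))
  simp only [LinearMap.comp_apply, conj_id hD hX hY φ v] at h1
  have h2 := h1.unique (h φ (D X v))
  simp only [cur_zero, map_one, Module.End.one_apply, one_mul, zero_mul, mul_zero, add_zero,
    sub_zero, mul_one] at h2
  simp only [LinearMap.sub_apply, Module.End.mul_apply, map_sub φ]
  linear_combination h2

end

theorem br : BR.{u} := by
  intro n V _ _ _ ρ D hD X hX Y hY
  induction hX using Submodule.span_induction with
  | mem X hX =>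
    induction hY using Submodule.span_induction with
    | mem Y hY => exact br_null hD hY hX
    | zero => simp
    | add Y Z _ _ h1 h2 =>
      rw [mul_add, add_mul, add_sub_add_comm, map_add, h1, h2, map_add, mul_add, add_mul,
        add_sub_add_comm]
    | smul a Y _ h1 =>
      rw [mul_smul_comm, smul_mul_assoc, ← smul_sub, map_smul, h1, map_smul, mul_smul_comm,
        smul_mul_assoc, smul_sub]
  | zero => simp
  | add Y Z _ _ h1 h2 =>
    rw [mul_add, add_mul, add_sub_add_comm, map_add, h1, h2, map_add, mul_add, add_mul,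
      add_sub_add_comm]
  | smul a Y _ h1 =>
    rw [mul_smul_comm, smul_mul_assoc, ← smul_sub, map_smul, h1, map_smul, mul_smul_comm,
      smul_mul_assoc, smul_sub]

theorem expand2 {V W : Type*} [AddCommGroup V] [Module ℂ V] [AddCommGroup W] [Module ℂ W]
    {ι : Type*} [Fintype ι] (b : Module.Basis ι ℂ V) (φ : V ⊗[ℂ] W →ₗ[ℂ] ℂ) (x : V) (y : W) :
    φ (x ⊗ₜ[ℂ] y) = ∑ i, b.coord i x * (φ ∘ₗ TensorProduct.mk ℂ V W (b i)) y := by
  conv_lhs => rw [← b.sum_repr x, TensorProduct.sum_tmul, map_sum]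
  simp [← TensorProduct.smul_tmul']

theorem ten : TEN.{u, v} := by
  intro n V _ _ _ W _ _ _ ρ σ D E hD hE
  refine ⟨(LinearMap.rTensorHom W) ∘ₗ D + (LinearMap.lTensorHom V) ∘ₗ E, ?_, fun X x y => by simp⟩
  intro c X hc φ z
  induction z using TensorProduct.induction_on with
  | zero => simpa using hasDerivAt_const (0 : ℂ) (0 : ℂ)
  | add z w h1 h2 => simpa only [map_add] using h1.fun_add h2
  | tmul x y =>
    let b := Module.finBasis ℂ V
    have h := HasDerivAt.fun_sum (u := Finset.univ) fun i _ =>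
      (hD c X hc (b.coord i) x).fun_mul (hE c X hc (φ ∘ₗ TensorProduct.mk ℂ V W (b i)) y)
    simp only [hc.1, map_one, Module.End.one_apply, Finset.sum_add_distrib, ← expand2] at h
    simpa using h

end Vale.Agent.P182G
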