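import Vale.Agent.P182G84.Top
import Vale.Agent.P182G.St2

/-!
# P182G: the two forms of the definitions agree
-/

namespace Vale.Agent.P182S

variable {n : ℕ}

theorem contains (n : ℕ) : Contains (Spin n) (e (n := n)) f := by
  refine ⟨fun i s => (P182G.tor i s).2, ?_⟩
  rintro x ⟨i, j, t, h, rfl | rfl⟩
  · exact (P182G.rootSub h t).2
  · exact (P182G.rootAdd h t).2

theorem isV_iff {V : Type*} [AddCommGroup V] [Module ℂ V] (lam : Fin n → ℚ) (ρ : Rp n V) :
    IsV lam ρ ↔ P182G.IsV lam ρ := by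
  refine and_congr Iff.rfl (and_congr Iff.rfl (and_congr Iff.rfl (exists_congr fun v =>
    and_congr Iff.rfl (and_congr (forall_congr' fun i => exists_congr fun k =>
      and_congr Iff.rfl (forall_congr' fun s => ?_)) ?_))))
  · refine ⟨fun h => h (P182G.tor i s) rfl, fun h g hg => ?_⟩
    obtain rfl : g = P182G.tor i s := Subtype.ext hg
    exact h
  · refine ⟨fun h i j hij t => ⟨h (P182G.rootSub hij t) ⟨i, j, t, hij, Or.inl rfl⟩,
      h (P182G.rootAdd hij t) ⟨i, j, t, hij, Or.inr rfl⟩⟩, ?_⟩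
    rintro h g ⟨i, j, t, hij, hg | hg⟩
    · obtain rfl : g = P182G.rootSub hij t := Subtype.ext hg
      exact (h i j hij t).1
    · obtain rfl : g = P182G.rootAdd hij t := Subtype.ext hg
      exact (h i j hij t).2

end Vale.Agent.P182S
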