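import Vale.Agent.P182G84.Fin
import Mathlib.Analysis.Complex.TaylorSeries
import Mathlib.Analysis.Calculus.Deriv.Shift

/-!
# P182G: the differential of a rational representation
-/

namespace Vale.Agent.P182G

open CliffordAlgebra QuadraticMap

universe u v

variable {n : ℕ}

theorem reg_der {F : Spin n → ℂ} (hF : F ∈ Regular n) :
    ∃ d : Cl n →ₗ[ℂ] ℂ, ∀ c X, Tan c X → HasDerivAt (fun t => F (c t)) (d X) 0 := by
  induction hF using Algebra.adjoin_induction with
  | mem F h =>
    obtain ⟨l, rfl⟩ := h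
    exact ⟨l, fun c X h => h.2 l⟩
  | algebraMap r => exact ⟨0, fun c X _ => hasDerivAt_const _ r⟩
  | add F G _ _ hF hG =>
    obtain ⟨d, hd⟩ := hF
    obtain ⟨e, he⟩ := hG
    exact ⟨d + e, fun c X h => (hd c X h).add (he c X h)⟩
  | mul F G _ _ hF hG =>
    obtain ⟨d, hd⟩ := hF
    obtain ⟨e, he⟩ := hG
    refine ⟨G 1 • d + F 1 • e, fun c X h => ?_⟩
    have := (hd c X h).mul (he c X h)
    simp only [h.1] at this
    exact this.congr_deriv (by simp [mul_comm])

theorem expand {V : Type*} [AddCommGroup V] [Module ℂ V] {ι : Type*} [Fintype ι]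
    (b : Module.Basis ι ℂ V) (φ : V →ₗ[ℂ] ℂ) (x : V) : φ x = ∑ i, φ (b i) * b.coord i x := by
  conv_lhs => rw [← b.sum_repr x, map_sum]
  simp [mul_comm]

theorem der : DER.{u} := by
  intro n V _ _ _ ρ hρ
  let b := Module.finBasis ℂ V
  choose d hd using fun i j => reg_der (hρ (b.coord i) (b j))
  refine ⟨∑ i, ∑ j, (d i j).smulRight ((b.coord j).smulRight (b i)), fun c X h φ v => ?_⟩
  have e1 : (fun t => φ (ρ (c t) v)) =
      fun t => ∑ i, ∑ j, φ (b i) * b.coord j v * b.coord i (ρ (c t) (b j)) := by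
    funext t
    rw [expand b φ]
    refine Finset.sum_congr rfl fun i _ => ?_
    have := expand b (b.coord i ∘ₗ ρ (c t)) v
    simp only [LinearMap.comp_apply] at this
    rw [this, Finset.mul_sum]
    exact Finset.sum_congr rfl fun j _ => by ring
  rw [e1]
  have := HasDerivAt.fun_sum (u := Finset.univ) fun i _ =>
    HasDerivAt.fun_sum (u := Finset.univ) fun j _ =>
      (hd i j c X h).const_mul (φ (b i) * b.coord j v)
  refine this.congr_deriv ?_
  simp only [LinearMap.sum_apply, LinearMap.smulRight_apply, map_sum, LinearMap.smul_apply,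
    map_smul, smul_eq_mul]
  exact Finset.sum_congr rfl fun i _ => Finset.sum_congr rfl fun j _ => by ring

section
variable {V : Type*} [AddCommGroup V] [Module ℂ V] {ρ : Representation ℂ (Spin n) V}
  {D : Cl n →ₗ[ℂ] Module.End ℂ V}

theorem der_cur (hD : IsD ρ D) {Y : Cl n} (hY : Y ∈ Null n) (φ : V →ₗ[ℂ] ℂ) (v : V) (t : ℂ) :
    HasDerivAt (fun s => φ (ρ (cur hY s) v)) (φ (ρ (cur hY t) (D Y v))) t := by
  have h := hD _ _ (tan_cur hY) (φ ∘ₗ ρ (cur hY t)) v
  simp only [LinearMap.comp_apply] at h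
  have h2 : HasDerivAt (fun s => φ (ρ (cur hY t) (ρ (cur hY s) v)))
      (φ (ρ (cur hY t) (D Y v))) (t - t) := by rwa [sub_self]
  have h3 := h2.comp_sub_const t t
  refine h3.congr_of_eventuallyEq (Filter.Eventually.of_forall fun s => ?_)
  beta_reduce
  rw [← Module.End.mul_apply, ← map_mul, ← cur_add, add_sub_cancel]

theorem iter_cur (hD : IsD ρ D) {Y : Cl n} (hY : Y ∈ Null n) (φ : V →ₗ[ℂ] ℂ) (k : ℕ) (v : V) :
    iteratedDeriv k (fun s => φ (ρ (cur hY s) v)) = fun s => φ (ρ (cur hY s) ((D Y ^ k) v)) := by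
  induction k with
  | zero => simp
  | succ k ih =>
    rw [iteratedDeriv_succ, ih]
    funext t
    rw [(der_cur hD hY φ _ t).deriv, pow_succ', Module.End.mul_apply]

end

theorem exp_row : EXP.{u} := by
  intro n V _ _ ρ D hD g Y hY hg φ v
  have hg' : g = cur hY 1 := Subtype.ext (by rw [hg, coe_cur, one_smul])
  have hd : Differentiable ℂ fun s => φ (ρ (cur hY s) v) :=
    fun t => (der_cur hD hY φ v t).differentiableAt
  have := Complex.taylorSeries_eq_of_entire' (c := 0) (z := 1) hd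
  rw [hg', ← this]
  refine tsum_congr fun k => ?_
  rw [iter_cur hD hY]
  simp [cur_zero]

end Vale.Agent.P182G
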