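import Vale.Agent.P182G84.Br

/-!
# P182G: tensor products and irreducible subquotients of rational representations
-/

namespace Vale.Agent.P182G

open scoped TensorProduct

variable {n : ℕ}

theorem ext_row : EXT := by
  rintro n lam mu ⟨V, _, _, ρ, _, hρ, v, hv, hv1, hv2⟩ ⟨W, _, _, σ, _, hσ, w, hw, hw1, hw2⟩
  refine ⟨V ⊗[ℂ] W, inferInstance, inferInstance, ρ.tprod σ, inferInstance, fun φ z => ?_,
    v ⊗ₜ w, fun h => ?_, fun i => ?_, fun i j h t => ?_⟩
  · induction z using TensorProduct.induction_on with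
    | zero =>
      simp only [map_zero]
      exact (Regular n).zero_mem
    | add z w h1 h2 =>
      simp only [map_add]
      exact (Regular n).add_mem h1 h2
    | tmul x y =>
      let b := Module.finBasis ℂ V
      have h := (Regular n).sum_mem (t := Finset.univ) fun i _ => (Regular n).mul_mem
        (hρ (b.coord i) x) (hσ (φ ∘ₗ TensorProduct.mk ℂ V W (b i)) y)
      refine Eq.mpr (congrArg (· ∈ Regular n) ?_) h
      funext g
      simp only [Representation.tprod_apply, TensorProduct.map_tmul, Finset.sum_apply,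
        Pi.mul_apply]
      exact expand2 b φ _ _
  · obtain ⟨φ, hφ⟩ := Module.Projective.exists_dual_ne_zero ℂ hv
    obtain ⟨ψ, hψ⟩ := Module.Projective.exists_dual_ne_zero ℂ hw
    have := congrArg (TensorProduct.lift (LinearMap.mul ℂ ℂ ∘ₗ φ |>.compl₂ ψ)) h
    simp [hφ, hψ] at this
  · obtain ⟨k, hk, hs⟩ := hv1 i
    obtain ⟨l, hl, ht⟩ := hw1 i
    refine ⟨k + l, by push_cast; rw [hk, hl, Pi.add_apply, mul_add], fun s => ?_⟩
    rw [Representation.tprod_apply, TensorProduct.map_tmul, hs, ht, TensorProduct.smul_tmul_smul,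
      zpow_add₀ s.ne_zero]
  · simp only [Representation.tprod_apply, TensorProduct.map_tmul, hv2 i j h t, hw2 i j h t,
      and_self]

theorem exq_aux (lam : Fin n → ℚ) (d : ℕ) : ∀ (V : Type) [AddCommGroup V] [Module ℂ V]
    [FiniteDimensional ℂ V] (ρ : Representation ℂ (Spin n) V), Module.finrank ℂ V = d →
    IsRational ρ → IsHighest lam ρ →
    ∃ (V : Type) (_ : AddCommGroup V) (_ : Module ℂ V) (ρ : Representation ℂ (Spin n) V),
      IsV lam ρ := by
  induction d using Nat.strong_induction_on with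
  | _ d ih =>
  intro V _ _ _ ρ hd hρ hl
  by_cases hi : ρ.IsIrreducible
  · exact ⟨V, _, _, ρ, inferInstance, hρ, hi, hl⟩
  obtain ⟨v, hv, h1, h2⟩ := hl
  obtain ⟨N, hN0, hN1⟩ : ∃ N : Subrepresentation ρ, N ≠ ⊥ ∧ N ≠ ⊤ := by
    by_contra hc
    push Not at hc
    have : Nontrivial (Subrepresentation ρ) := ⟨⊥, ⊤, fun h => hv (by
      have : v ∈ (⊤ : Subrepresentation ρ).toSubmodule := Submodule.mem_top
      rwa [← h] at this)⟩
    exact hi (IsSimpleOrder.of_forall_eq_top hc)
  have hN0' : N.toSubmodule ≠ ⊥ := fun h => hN0 (Subrepresentation.toSubmodule_injective h)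
  have hN1' : N.toSubmodule ≠ ⊤ := fun h => hN1 (Subrepresentation.toSubmodule_injective h)
  by_cases hm : v ∈ N.toSubmodule
  · refine ih _ (hd ▸ Submodule.finrank_lt hN1') N.toSubmodule N.toRepresentation rfl
      (fun φ x => ?_) ⟨⟨v, hm⟩, fun h => hv (congrArg Subtype.val h), fun i => ?_,
        fun i j h t => ⟨Subtype.ext (h2 i j h t).1, Subtype.ext (h2 i j h t).2⟩⟩
    · obtain ⟨ψ, rfl⟩ := LinearMap.exists_extend φ
      exact hρ ψ x
    · obtain ⟨k, hk, hs⟩ := h1 i
      exact ⟨k, hk, fun s => Subtype.ext (hs s)⟩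
  · have hlt : Module.finrank ℂ (V ⧸ N.toSubmodule) < d := by
      have := N.toSubmodule.finrank_quotient_add_finrank
      have h0 : Module.finrank ℂ N.toSubmodule ≠ 0 := fun h => hN0' (Submodule.finrank_eq_zero.1 h)
      omega
    refine ih _ hlt (V ⧸ N.toSubmodule)
      (ρ.quotient N.toSubmodule fun g x hx => N.apply_mem_toSubmodule g hx) rfl
      (fun φ x => ?_) ⟨N.toSubmodule.mkQ v, fun h => hm ((Submodule.Quotient.mk_eq_zero _).1 h),
        fun i => ?_, fun i j h t => ⟨congrArg N.toSubmodule.mkQ (h2 i j h t).1,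
          congrArg N.toSubmodule.mkQ (h2 i j h t).2⟩⟩
    · obtain ⟨y, rfl⟩ := N.toSubmodule.mkQ_surjective x
      exact hρ (φ ∘ₗ N.toSubmodule.mkQ) y
    · obtain ⟨k, hk, hs⟩ := h1 i
      exact ⟨k, hk, fun s => (congrArg N.toSubmodule.mkQ (hs s)).trans (map_smul _ _ _)⟩

theorem exq_row : EXQ := by
  rintro n lam ⟨V, _, _, ρ, _, hρ, hl⟩
  exact exq_aux lam _ V ρ rfl hρ hl

end Vale.Agent.P182G
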