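import Vale.Agent.P182G84.Mod
import Mathlib.LinearAlgebra.CliffordAlgebra.Inversion

/-!
# P182G: the fundamental representations
-/

namespace Vale.Agent.P182G

open CliffordAlgebra QuadraticMap

variable {n : ℕ}

/-- The basis vectors in the Clifford algebra. -/
noncomputable abbrev gm (k : Fin n ⊕ Fin n) : Cl n := ι (Qs n) (bv k)

theorem gm_sq (k : Fin n ⊕ Fin n) : gm k * gm k = 0 := by
  rw [ι_sq_scalar, q_bv (Q := Qs n) split_apply, map_zero]

theorem gm_anti {k l : Fin n ⊕ Fin n} (h : k.swap ≠ l) : gm k * gm l = -(gm l * gm k) :=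
  anti (by rw [polar_bv (Q := Qs n) split_apply]; simp [h])

theorem gm_swap (k : Fin n ⊕ Fin n) : gm k * gm k.swap + gm k.swap * gm k = 1 := by
  rw [ι_mul_ι_add_swap, polar_bv (Q := Qs n) split_apply]
  simp

theorem exists_vec (S : Finset (Fin n ⊕ Fin n)) (hS : ∀ k ∈ S, k.swap ∉ S) :
    ∃ (v : Cl n) (c : ℂ), v ≠ 0 ∧ c * c = 1 ∧ (∀ k ∈ S, gm k * v = 0) ∧
      ∀ k, k.swap ∉ S → gm k * v = c • (v * gm k) := by
  classical
  induction S using Finset.induction_on with
  | empty =>
    let : Invertible (2 : ℂ) := invertibleOfNonzero two_ne_zero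
    exact ⟨1, 1, one_ne_zero, one_mul 1, by simp, by simp⟩
  | insert a S ha ih =>
    obtain ⟨v, c, hv, hc, h1, h2⟩ := ih fun k hk h =>
      hS k (Finset.mem_insert_of_mem hk) (Finset.mem_insert_of_mem h)
    refine ⟨gm a * v, -c, fun h => hv ?_, by rw [neg_mul_neg, hc], fun k hk => ?_, fun k hk => ?_⟩
    · rw [← one_mul v, ← gm_swap a, add_mul, mul_assoc, mul_assoc, h, mul_zero, add_zero,
        h2 a.swap (by simpa using ha), mul_smul_comm, ← mul_assoc, h, zero_mul, smul_zero]
    · rcases Finset.mem_insert.1 hk with rfl | hk'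
      · rw [← mul_assoc, gm_sq, zero_mul]
      · have : k.swap ≠ a := fun e => hS k hk (e ▸ Finset.mem_insert_self _ _)
        rw [← mul_assoc, gm_anti this, neg_mul, mul_assoc, h1 k hk', mul_zero, neg_zero]
    · rw [Finset.mem_insert, not_or] at hk
      rw [← mul_assoc, gm_anti hk.1, neg_mul, mul_assoc, h2 k hk.2, mul_smul_comm, mul_assoc,
        neg_smul]

theorem reg_lin (l : Cl n →ₗ[ℂ] ℂ) : (fun g : Spin n => l g) ∈ Regular n :=
  Algebra.subset_adjoin ⟨l, rfl⟩

/-- Left multiplication. -/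
noncomputable def lrep (n : ℕ) : Representation ℂ (Spin n) (Cl n) where
  toFun g := LinearMap.mulLeft ℂ (g : Cl n)
  map_one' := LinearMap.ext fun x => one_mul x
  map_mul' g h := LinearMap.ext fun x => mul_assoc (g : Cl n) h x

/-- Conjugation. -/
noncomputable def crep (n : ℕ) : Representation ℂ (Spin n) (Cl n) where
  toFun g := LinearMap.mulLeft ℂ (g : Cl n) ∘ₗ LinearMap.mulRight ℂ (star (g : Cl n))
  map_one' := LinearMap.ext fun x => by simp
  map_mul' g h := LinearMap.ext fun x => by simp [mul_assoc]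

theorem lrep_rat : IsRational (lrep n) := fun φ v => reg_lin (φ ∘ₗ LinearMap.mulRight ℂ v)

theorem crep_rat : IsRational (crep n) := fun φ v => by
  let b := Module.finBasis ℂ (Cl n)
  have h := (Regular n).sum_mem (t := Finset.univ) fun i _ => (Regular n).mul_mem
    (reg_lin (φ ∘ₗ LinearMap.mulRight ℂ (v * b i)))
    (reg_lin (b.coord i ∘ₗ reverse ∘ₗ involute.toLinearMap))
  refine Eq.mpr (congrArg (· ∈ Regular n) ?_) h
  funext g
  rw [Finset.sum_apply]
  exact expand b (φ ∘ₗ LinearMap.mulLeft ℂ (g : Cl n) ∘ₗ LinearMap.mulLeft ℂ v) (star (g : Cl n))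

theorem crep_of {g : Spin n} {v : Cl n} {c : ℂ} (h : (g : Cl n) * v = c • (v * g)) :
    crep n g v = c • v := by
  show (g : Cl n) * (v * star (g : Cl n)) = _
  rw [← mul_assoc, h, smul_mul_assoc, mul_assoc, spinGroup.mul_star_self_of_mem g.2,
    mul_one]

theorem tor_e {i : Fin n} {v : Cl n} (h : e i * v = 0) (s : ℂˣ) :
    (tor i s : Cl n) * v = (s : ℂ) • v := by
  show (_ • _ + _ • _) * v = _
  rw [add_mul, smul_mul_assoc, smul_mul_assoc, eq_sub_of_add_eq (ef_add i), sub_mul, mul_assoc, h]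
  simp

theorem tor_f {i : Fin n} {v : Cl n} (h : f i * v = 0) (s : ℂˣ) :
    (tor i s : Cl n) * v = ((s⁻¹ : ℂˣ) : ℂ) • v := by
  show (_ • _ + _ • _) * v = _
  rw [add_mul, smul_mul_assoc, smul_mul_assoc, eq_sub_of_add_eq' (ef_add i), sub_mul, mul_assoc, h]
  simp

theorem root_e {i : Fin n} {l : Fin n ⊕ Fin n} (hl : Sum.inr i ≠ l) {v : Cl n} (h : e i * v = 0)
    (t : ℂ) : (1 + t • (e i * gm l)) * v = v := by
  have : e i * gm l = -(gm l * e i) := gm_anti (k := Sum.inl i) hl
  rw [add_mul, smul_mul_assoc, this, neg_mul, mul_assoc, h]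
  simp

theorem exs_aux (p : Fin n → Prop) [DecidablePred p] (hp : ∀ i j, i < j → ¬ p i) :
    HasHW (fun i : Fin n => if p i then -1 / 2 else 1 / 2) := by
  classical
  obtain ⟨v, c, hv, -, h1, -⟩ := exists_vec
    (Finset.univ.filter fun k => Sum.elim (fun i => ¬ p i) p k) (by rintro (i | i) <;> simp)
  have he : ∀ i, ¬ p i → e i * v = 0 := fun i h => h1 (Sum.inl i) (by simpa using h)
  refine ⟨Cl n, _, _, lrep n, inferInstance, lrep_rat, v, hv, fun i => ?_, fun i j h t =>
    ⟨root_e (by simp [h.ne]) (he i (hp i j h)) t, root_e (by simp) (he i (hp i j h)) t⟩⟩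
  by_cases h : p i
  · refine ⟨-1, by simp only [h, if_true]; norm_num, fun s => ?_⟩
    rw [zpow_neg_one, ← Units.val_inv_eq_inv_val]
    exact tor_f (h1 (Sum.inr i) (by simpa using h)) s
  · exact ⟨1, by simp [h], fun s => by rw [zpow_one]; exact tor_e (he i h) s⟩

theorem exs_row : EXS := fun n =>
  ⟨by simpa using exs_aux (n := n) (fun _ => False) fun _ _ _ => id,
    exs_aux (fun i => i.val + 1 = n) fun i j h => by have := j.2; have : i.val < j.val := h; omega⟩

theorem exw_row : EXW := by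
  classical
  intro n k
  obtain ⟨v, c, hv, hc, h1, h2⟩ := exists_vec (n := n)
    (Finset.univ.filter fun l => Sum.elim (fun i : Fin n => i.val < k) (fun _ => False) l)
    (by rintro (i | i) <;> simp)
  have hc0 : c ≠ 0 := left_ne_zero_of_mul_eq_one hc
  have he : ∀ i : Fin n, i.val < k → e i * v = 0 := fun i h => h1 (Sum.inl i) (by simpa using h)
  have he2 : ∀ i : Fin n, e i * v = c • (v * e i) := fun i => h2 (Sum.inl i) (by simp)
  have hf2 : ∀ i : Fin n, ¬ i.val < k → f i * v = c • (v * f i) := fun i h =>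
    h2 (Sum.inr i) (by simpa using h)
  have he' : ∀ i : Fin n, i.val < k → v * e i = 0 := fun i h =>
    (smul_eq_zero.1 ((he2 i).symm.trans (he i h))).resolve_left hc0
  have hcm : ∀ x y : Cl n, x * v = c • (v * x) → y * v = c • (v * y) → x * y * v = v * (x * y) :=
    fun x y hx hy => by
      rw [mul_assoc, hy, mul_smul_comm, ← mul_assoc, hx, smul_mul_assoc, smul_smul, hc, one_smul,
        mul_assoc]
  have hr : ∀ (g : Spin n) (i : Fin n) (l : Fin n ⊕ Fin n) (t : ℂ), Sum.inr i ≠ l →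
      (g : Cl n) = 1 + t • (e i * gm l) → (¬ i.val < k → gm l * v = c • (v * gm l)) →
      crep n g v = v := fun g i l t hl hg h => by
    refine (crep_of (c := 1) ?_).trans (one_smul _ _)
    rw [hg, one_smul]
    by_cases hi : i.val < k
    · rw [root_e hl (he i hi), mul_add, mul_smul_comm, ← mul_assoc, he' i hi]
      simp
    · rw [add_mul, mul_add, smul_mul_assoc, mul_smul_comm, hcm _ _ (he2 i) (h hi)]
      simp
  refine ⟨Cl n, _, _, crep n, inferInstance, crep_rat, v, hv, fun i => ?_, fun i j h t =>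
    ⟨hr _ i (Sum.inr j) t (by simp [h.ne]) rfl fun hi => hf2 j ?_,
      hr _ i (Sum.inl j) t (by simp) rfl fun _ => he2 j⟩⟩
  · by_cases h : i.val < k
    · refine ⟨2, by simp [h], fun s => crep_of ?_⟩
      rw [tor_e (he i h)]
      show _ = _ • (v * (_ • _ + _ • _))
      rw [mul_add, mul_smul_comm, mul_smul_comm, eq_sub_of_add_eq' (ef_add i), mul_sub,
        ← mul_assoc, he' i h]
      simp [smul_smul, zpow_ofNat, pow_two]
    · refine ⟨0, by simp [h], fun s => crep_of ?_⟩
      show (_ • _ + _ • _) * v = _ • (v * (_ • _ + _ • _))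
      rw [add_mul, mul_add, smul_mul_assoc, smul_mul_assoc, hcm _ _ (he2 i) (hf2 i h),
        hcm _ _ (hf2 i h) (he2 i)]
      simp
  · have : i.val < j.val := h
    omega

end Vale.Agent.P182G
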