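import Vale.Agent.P182G.Rows
import Mathlib.LinearAlgebra.CliffordAlgebra.Contraction
import Mathlib.LinearAlgebra.ExteriorAlgebra.Basis
import Mathlib.Analysis.Calculus.Deriv.Mul
import Mathlib.Analysis.Calculus.Deriv.Add

/-!
# P182G: finite dimension, null curves
-/

namespace Vale.Agent.P182G

open CliffordAlgebra QuadraticMap

instance finCl (n : ℕ) : FiniteDimensional ℂ (Cl n) := by
  let : Invertible (2 : ℂ) := invertibleOfNonzero two_ne_zero
  have : Module.Finite ℂ (ExteriorAlgebra ℂ (Fin n ⊕ Fin n → ℂ)) :=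
    Module.Finite.of_basis (Module.finBasis ℂ (Fin n ⊕ Fin n → ℂ)).ExteriorAlgebra
  exact Module.Finite.equiv (equivExterior (Qs n)).symm

theorem fin : FIN := finCl

variable {n : ℕ}

theorem null_smul {Y : Cl n} (h : Y ∈ Null n) (t : ℂ) : t • Y ∈ Null n := by
  obtain ⟨a, m, hm, hp, ha, rfl⟩ := h
  refine ⟨a, t • m, ?_, ?_, ha, ?_⟩
  · rw [QuadraticMap.map_smul, hm, smul_zero]
  · rw [polar_smul_right, hp, smul_zero]
  · rw [map_smul, mul_smul_comm]

theorem null_spin {Y : Cl n} (h : Y ∈ Null n) : 1 + Y ∈ spinGroup (Qs n) := by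
  obtain ⟨a, m, hm, hp, ha, rfl⟩ := h
  exact null_mem hm hp ha

theorem null_sq {Y : Cl n} (h : Y ∈ Null n) : Y * Y = 0 := by
  obtain ⟨a, m, hm, hp, ha, rfl⟩ := h
  have h0 : ι (Qs n) m * ι (Qs n) m = 0 := by rw [ι_sq_scalar, hm, map_zero]
  rw [mul_assoc, ← mul_assoc (ι (Qs n) m), anti hp, neg_mul, mul_assoc, h0]
  simp

/-- The one-parameter subgroup `t ↦ 1 + t Y`. -/
def cur {Y : Cl n} (h : Y ∈ Null n) (t : ℂ) : Spin n := ⟨1 + t • Y, null_spin (null_smul h t)⟩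

theorem coe_cur {Y : Cl n} (h : Y ∈ Null n) (t : ℂ) : (cur h t : Cl n) = 1 + t • Y := rfl

theorem cur_zero {Y : Cl n} (h : Y ∈ Null n) : cur h 0 = 1 := by
  apply Subtype.ext
  simp [coe_cur]

theorem cur_add {Y : Cl n} (h : Y ∈ Null n) (s t : ℂ) : cur h (s + t) = cur h s * cur h t := by
  apply Subtype.ext
  show 1 + (s + t) • Y = (1 + s • Y) * (1 + t • Y)
  rw [add_mul, mul_add, mul_add, smul_mul_smul_comm, null_sq h, add_smul]
  simp [add_assoc, add_comm]

theorem tan_lin {c : ℂ → Spin n} {Y : Cl n} (h : ∀ t, (c t : Cl n) = 1 + t • Y) : Tan c Y := by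
  refine ⟨Subtype.ext (by simp [h]), fun l => ?_⟩
  simp only [h, map_add, map_smul, smul_eq_mul]
  simpa using ((hasDerivAt_id (0 : ℂ)).mul_const (l Y)).const_add (l 1)

theorem tan_cur {Y : Cl n} (h : Y ∈ Null n) : Tan (cur h) Y := tan_lin (coe_cur h)

end Vale.Agent.P182G
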