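import Vale.Agent.P182G84.Mod
import Vale.Agent.P182G78.Phi
import Vale.Agent.P182.H163.SoD

/-!
# P182G: the Lie module of a rational representation
-/

namespace Vale.Agent.P182G

open CliffordAlgebra QuadraticMap Vale.Agent.P182 Vale.Agent.P182G78
open scoped TensorProduct

attribute [local instance 100] LieRing.ofAssociativeRing

variable {n : ℕ}

/-- The Lie module structure of `V` is the differential of `ρ`. -/
def IsLie {V : Type*} [AddCommGroup V] [Module ℂ V] [LieRingModule (so n) V]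
    (ρ : Representation ℂ (Spin n) V) : Prop :=
  ∃ D, IsD ρ D ∧ ∀ (A : so n) (v : V), ⁅A, v⁆ = D (phi n A) v

section
variable {V W : Type*} [AddCommGroup V] [Module ℂ V] [AddCommGroup W] [Module ℂ W]
  {ρ : Representation ℂ (Spin n) V} {σ : Representation ℂ (Spin n) W}

theorem exists_lie (hn : 2 ≤ n) [FiniteDimensional ℂ V] (h : IsRational ρ) :
    ∃ (_ : LieRingModule (so n) V) (_ : LieModule ℂ (so n) V), IsLie ρ := by
  obtain ⟨D, hD⟩ := der n V ρ h
  let F : so n →ₗ⁅ℂ⁆ Module.End ℂ V :=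
    { D ∘ₗ phi n with
      map_lie' := fun {A B} => by
        show D (phi n ⁅A, B⁆) = D (phi n A) * D (phi n B) - D (phi n B) * D (phi n A)
        rw [phi_lie, br n V ρ D hD _ (phi_span hn A) _ (phi_span hn B)] }
  exact ⟨LieRingModule.compLieHom V F, LieModule.compLieHom V F, D, hD, fun _ _ => rfl⟩

variable [LieRingModule (so n) V] [LieModule ℂ (so n) V] [LieRingModule (so n) W]
  [LieModule ℂ (so n) W]

theorem IsLie.irred (hn : 2 ≤ n) (h : IsLie ρ) (hi : ρ.IsIrreducible) :
    LieModule.IsIrreducible ℂ (so n) V := by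
  obtain ⟨D, hD, hA⟩ := h
  have : Nontrivial V := by
    by_contra hV
    rw [not_nontrivial_iff_subsingleton] at hV
    exact bot_ne_top (α := Subrepresentation ρ)
      (Subrepresentation.toSubmodule_injective (Subsingleton.elim _ _))
  refine LieModule.IsIrreducible.mk fun N hN => ?_
  have hs := int_sub hn hD (N := N.toSubmodule) fun Y hY v hv => by
    obtain ⟨A, rfl⟩ := phi_surj hY
    rw [← hA]
    exact N.lie_mem hv
  rcases hi.eq_bot_or_eq_top ⟨N.toSubmodule, fun g v hv => hs g v hv⟩ with h | h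
  · exact absurd (LieSubmodule.toSubmodule_injective
      (congrArg Subrepresentation.toSubmodule h)) hN
  · exact LieSubmodule.toSubmodule_injective (congrArg Subrepresentation.toSubmodule h)

omit [LieModule ℂ (so n) V] in
theorem IsLie.hw (h : IsLie ρ) {lam : Fin n → ℚ} (hl : IsHighest lam ρ) :
    HasHighestWeight lam V := by
  obtain ⟨D, hD, hA⟩ := h
  obtain ⟨v, hv, ht, hr⟩ := hl
  refine ⟨v, hv, fun a => ?_, fun x hx => ?_⟩
  · rw [hA, phi_cartan, map_sum, LinearMap.sum_apply, Finset.sum_smul]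
    refine Finset.sum_congr rfl fun i _ => ?_
    obtain ⟨k, hk, hs⟩ := ht i
    have hk' : (k : ℂ) = 2 * (lam i : ℂ) := by exact_mod_cast hk
    rw [map_smul, LinearMap.smul_apply, der_tor hD hs, smul_smul, hk']
    congr 1
    ring
  · rw [hA]
    have hp := phi_pos x hx
    generalize phi n x = Y at hp
    induction hp using Submodule.span_induction with
    | mem Y hY =>
      obtain ⟨i, j, hij, rfl | rfl⟩ := hY
      · exact der_fix hD (tan_lin (c := rootSub hij) fun _ => rfl) fun t => (hr i j hij t).1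
      · exact der_fix hD (tan_lin (c := rootAdd hij) fun _ => rfl) fun t => (hr i j hij t).2
    | zero => simp
    | add Y Z _ _ h1 h2 => simp [h1, h2]
    | smul a Y _ h1 => simp [h1]

theorem IsLie.tprod [FiniteDimensional ℂ V] [FiniteDimensional ℂ W] (h : IsLie ρ) (h' : IsLie σ) :
    IsLie (ρ.tprod σ) := by
  obtain ⟨D, hD, hA⟩ := h
  obtain ⟨E, hE, hB⟩ := h'
  obtain ⟨F, hF, hT⟩ := ten n V W ρ σ D E hD hE
  refine ⟨F, hF, fun A z => ?_⟩
  induction z using TensorProduct.induction_on with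
  | zero => simp
  | add z w h1 h2 => rw [lie_add, map_add, h1, h2]
  | tmul x y => rw [hT, TensorProduct.LieModule.lie_tmul_right, hA, hB]

theorem IsLie.inv (hn : 2 ≤ n) (h : IsLie ρ) :
    ρ.invariants = (LieModule.maxTrivSubmodule ℂ (so n) V).toSubmodule := by
  obtain ⟨D, hD, hA⟩ := h
  ext v
  rw [Representation.mem_invariants, LieSubmodule.mem_toSubmodule,
    LieModule.mem_maxTrivSubmodule]
  constructor
  · intro hv A
    rw [hA]
    have hp := phi_span hn A
    generalize phi n A = Y at hp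
    induction hp using Submodule.span_induction with
    | mem Y hY => exact der_fix hD (tan_cur hY) fun t => hv _
    | zero => simp
    | add Y Z _ _ h1 h2 => simp [h1, h2]
    | smul a Y _ h1 => simp [h1]
  · intro hv
    refine int_fix hn hD fun Y hY => ?_
    obtain ⟨A, rfl⟩ := phi_surj hY
    rw [← hA, hv]

theorem IsLie.equiv (hn : 2 ≤ n) (h : IsLie ρ) (h' : IsLie σ) (T : V ≃ₗ⁅ℂ, so n⁆ W) :
    Nonempty (ρ.Equiv σ) := by
  obtain ⟨D, hD, hA⟩ := h
  obtain ⟨E, hE, hB⟩ := h'
  refine ⟨Representation.Equiv.mk T.toLinearEquiv fun g => LinearMap.ext fun v => ?_⟩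
  refine int_hom hn hD hE (T := T.toLinearEquiv.toLinearMap) (fun Y hY w => ?_) g v
  obtain ⟨A, rfl⟩ := phi_surj hY
  rw [← hA, ← hB]
  exact T.toLieModuleHom.map_lie A w

end

theorem uniq (hn : 2 ≤ n) {lam : Fin n → ℚ} {V W : Type*} [AddCommGroup V] [Module ℂ V]
    [AddCommGroup W] [Module ℂ W] {ρ : Representation ℂ (Spin n) V}
    {σ : Representation ℂ (Spin n) W} (h : IsV lam ρ) (h' : IsV lam σ) : Nonempty (ρ.Equiv σ) := by
  obtain ⟨_, h2, h3, h4⟩ := h
  obtain ⟨_, h2', h3', h4'⟩ := h'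
  obtain ⟨_, _, l⟩ := exists_lie hn h2
  obtain ⟨_, _, l'⟩ := exists_lie hn h2'
  have := l.irred hn h3
  have := l'.irred hn h3'
  obtain ⟨v, hv, hw⟩ := l.hw h4
  obtain ⟨w, hv', hw'⟩ := l'.hw h4'
  obtain ⟨T⟩ := equiv_of_hw (triD n) ((isHW_iff lam v).2 hw) ((isHW_iff lam w).2 hw') hv hv'
  exact l.equiv hn l' T

theorem inv_iff (hn : 2 ≤ n) {U V W : Type*} [AddCommGroup U] [Module ℂ U] [AddCommGroup V]
    [Module ℂ V] [AddCommGroup W] [Module ℂ W] [FiniteDimensional ℂ U] [FiniteDimensional ℂ V]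
    [FiniteDimensional ℂ W] [LieRingModule (so n) U] [LieModule ℂ (so n) U]
    [LieRingModule (so n) V] [LieModule ℂ (so n) V] [LieRingModule (so n) W]
    [LieModule ℂ (so n) W] {τ : Representation ℂ (Spin n) U} {ρ : Representation ℂ (Spin n) V}
    {σ : Representation ℂ (Spin n) W} (a : IsLie τ) (b : IsLie ρ) (c : IsLie σ) :
    (τ.tprod (ρ.tprod σ)).invariants ≠ ⊥ ↔ HasInvariants (n := n) U V W := by
  rw [(a.tprod (b.tprod c)).inv hn, HasInvariants, Ne, Ne, LieSubmodule.toSubmodule_eq_bot]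

end Vale.Agent.P182G
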