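import Vale.Agent.P182G84.Br
import Vale.Agent.P182G78.GenRow
import Mathlib.Analysis.SpecialFunctions.ExpDeriv

/-!
# P182G: from representations of the group to modules over the Lie algebra
-/

namespace Vale.Agent.P182G

open CliffordAlgebra QuadraticMap Vale.Agent.P182
open scoped TensorProduct

attribute [local instance 100] LieRing.ofAssociativeRing

variable {n : ℕ}

theorem gen_ind (hn : 2 ≤ n) {P : Spin n → Prop} (h1 : P 1) (hm : ∀ g h, P g → P h → P (g * h))
    (hc : ∀ (Y : Cl n) (hY : Y ∈ Null n), P (cur hY 1)) (g : Spin n) : P g := by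
  let H : Subgroup (Spin n) :=
    { carrier := {g | P g ∧ P g⁻¹}
      one_mem' := ⟨h1, by rw [inv_one]; exact h1⟩
      mul_mem' := fun {a b} ha hb => ⟨hm _ _ ha.1 hb.1, by rw [mul_inv_rev]; exact hm _ _ hb.2 ha.2⟩
      inv_mem' := fun {a} ha => ⟨ha.2, by rw [inv_inv]; exact ha.1⟩ }
  have hH : H = ⊤ := by
    refine P182G78.gen_row n hn H fun g Y hY hg => ?_
    have hg' : g = cur hY 1 := Subtype.ext (by rw [hg, coe_cur, one_smul])
    have hi : g⁻¹ = cur (null_smul hY (-1)) 1 := by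
      rw [hg', inv_eq_iff_mul_eq_one]
      have : cur (null_smul hY (-1)) 1 = cur hY (-1) := Subtype.ext (by simp [coe_cur])
      rw [this, ← cur_add, add_neg_cancel, cur_zero]
    exact ⟨hg' ▸ hc Y hY, hi ▸ hc _ _⟩
  exact (hH ▸ Subgroup.mem_top g : g ∈ H).1

section
variable {V W : Type*} [AddCommGroup V] [Module ℂ V] [AddCommGroup W] [Module ℂ W]
  {ρ : Representation ℂ (Spin n) V} {σ : Representation ℂ (Spin n) W}
  {D : Cl n →ₗ[ℂ] Module.End ℂ V} {E : Cl n →ₗ[ℂ] Module.End ℂ W}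

theorem int_sub (hn : 2 ≤ n) (hD : IsD ρ D) {N : Submodule ℂ V}
    (h : ∀ Y ∈ Null n, ∀ v ∈ N, D Y v ∈ N) (g : Spin n) : ∀ v ∈ N, ρ g v ∈ N := by
  refine gen_ind hn (P := fun g => ∀ v ∈ N, ρ g v ∈ N) (by simp) (fun a b ha hb v hv => ?_)
    (fun Y hY v hv => ?_) g
  · rw [map_mul]
    exact ha _ (hb v hv)
  · rw [← Subspace.forall_mem_dualAnnihilator_apply_eq_zero_iff]
    intro φ hφ
    rw [exp_row n V ρ D hD _ Y hY (by rw [coe_cur, one_smul]) φ v]
    have : ∀ k : ℕ, (D Y ^ k) v ∈ N := fun k => by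
      induction k with
      | zero => simpa using hv
      | succ k ih => rw [pow_succ', Module.End.mul_apply]; exact h Y hY _ ih
    simp [(Submodule.mem_dualAnnihilator φ).1 hφ _ (this _)]

theorem int_hom (hn : 2 ≤ n) (hD : IsD ρ D) (hE : IsD σ E) {T : V →ₗ[ℂ] W}
    (h : ∀ Y ∈ Null n, ∀ v, T (D Y v) = E Y (T v)) (g : Spin n) : ∀ v, T (ρ g v) = σ g (T v) := by
  refine gen_ind hn (P := fun g => ∀ v, T (ρ g v) = σ g (T v)) (by simp) (fun a b ha hb v => ?_)
    (fun Y hY v => dual_ext fun φ => ?_) g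
  · rw [map_mul, map_mul, Module.End.mul_apply, Module.End.mul_apply, ha, hb]
  · have hc : (cur hY 1 : Cl n) = 1 + Y := by rw [coe_cur, one_smul]
    rw [exp_row n W σ E hE _ Y hY hc φ, ← LinearMap.comp_apply φ,
      ← LinearMap.comp_apply (φ ∘ₗ T), LinearMap.comp_apply (φ ∘ₗ T),
      exp_row n V ρ D hD _ Y hY hc (φ ∘ₗ T)]
    have : ∀ k : ℕ, T ((D Y ^ k) v) = (E Y ^ k) (T v) := fun k => by
      induction k with
      | zero => simp
      | succ k ih => rw [pow_succ', pow_succ', Module.End.mul_apply, Module.End.mul_apply, h Y hY, ih]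
    simp [this]

theorem int_fix (hn : 2 ≤ n) (hD : IsD ρ D) {v : V} (h : ∀ Y ∈ Null n, D Y v = 0) (g : Spin n) :
    ρ g v = v := by
  have h0 : IsD (Representation.trivial ℂ (Spin n) ℂ) 0 := fun c X _ φ v => by
    simpa using hasDerivAt_const (0 : ℂ) (φ v)
  simpa using (int_hom hn h0 hD (T := LinearMap.toSpanSingleton ℂ V v)
    (fun Y hY w => by simp [h Y hY]) g 1).symm

theorem der_fix (hD : IsD ρ D) {v : V} {c : ℂ → Spin n} {X : Cl n} (hc : Tan c X)
    (h : ∀ t, ρ (c t) v = v) : D X v = 0 := by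
  refine dual_ext fun φ => ?_
  have := hD c X hc φ v
  simp only [h] at this
  rw [map_zero]
  exact this.unique (hasDerivAt_const _ _)

theorem ef_add (i : Fin n) : e i * f i + f i * e i = 1 := by
  rw [e, f, ι_mul_ι_add_swap, polar_bv (Q := Qs n) split_apply]
  simp

theorem tan_tor (i : Fin n) :
    Tan (fun t => tor i (Units.mk0 (Complex.exp t) (Complex.exp_ne_zero t)))
      (e i * f i - f i * e i) := by
  refine ⟨Subtype.ext (by simpa [tor] using ef_add i), fun l => ?_⟩
  have h1 := (Complex.hasDerivAt_exp 0).mul_const (l (e i * f i))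
  have h2 := ((hasDerivAt_neg' (0 : ℂ)).cexp).mul_const (l (f i * e i))
  refine ((h1.fun_add h2).congr_deriv (by simp [sub_eq_add_neg])).congr_of_eventuallyEq
    (Filter.Eventually.of_forall fun t => ?_)
  simp [tor, Complex.exp_neg]

theorem der_tor (hD : IsD ρ D) {v : V} {i : Fin n} {k : ℤ}
    (h : ∀ s, ρ (tor i s) v = (s : ℂ) ^ k • v) : D (e i * f i - f i * e i) v = (k : ℂ) • v := by
  refine dual_ext fun φ => ?_
  have h1 := hD _ _ (tan_tor i) φ v
  simp only [h, map_smul, Units.val_mk0, smul_eq_mul, ← Complex.exp_int_mul] at h1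
  have h2 := (((hasDerivAt_id' (0 : ℂ)).const_mul (k : ℂ)).cexp).mul_const (φ v)
  simpa using h1.unique h2

end

end Vale.Agent.P182G
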