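import Vale.Agent.P182G84.Lie
import Vale.Agent.P182G84.Exq
import Vale.Agent.P182G84.Exs
import Vale.Agent.P182G78.Exd

/-!
# P182G: existence of `V(lam)` and the passage to the Lie algebra
-/

namespace Vale.Agent.P182G

open Vale.Agent.P182

attribute [local instance 100] LieRing.ofAssociativeRing

variable {n : ℕ}

theorem exists_V {lam : Fin n → ℚ} (h : IsDominant lam) :
    ∃ (V : Type) (_ : AddCommGroup V) (_ : Module ℂ V) (ρ : Representation ℂ (Spin n) V),
      IsV lam ρ :=
  exq_row n lam (P182G78.exd_row exs_row exw_row ext_row n lam h)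

theorem IsV.lie (hn : 2 ≤ n) {lam : Fin n → ℚ} {V : Type*} [AddCommGroup V] [Module ℂ V]
    {ρ : Representation ℂ (Spin n) V} (h : IsV lam ρ) :
    ∃ (_ : FiniteDimensional ℂ V) (_ : LieRingModule (so n) V) (_ : LieModule ℂ (so n) V)
      (_ : LieModule.IsIrreducible ℂ (so n) V), IsLie ρ ∧ HasHighestWeight lam V := by
  obtain ⟨h1, h2, h3, h4⟩ := h
  obtain ⟨a, b, l⟩ := exists_lie hn h2
  exact ⟨h1, a, b, l.irred hn h3, l, l.hw h4⟩

end Vale.Agent.P182G
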